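import Vale.Agent.P031.Final

namespace Vale.Agent.Results.P031.Ratio

/-- the number of distinct values of Euler's totient function that are at most `x` -/
noncomputable def V (x : ℝ) : ℕ :=
  Set.ncard {v : ℕ | (∃ n : ℕ, 1 ≤ n ∧ Nat.totient n = v) ∧ (v : ℝ) ≤ x}

theorem result (c : ℝ) (hc : 1 < c) :
    Filter.Tendsto (fun x : ℝ => (V (c * x) : ℝ) / (V x : ℝ)) Filter.atTop (nhds c) := by
  have key : ∀ x : ℝ, 0 ≤ x → V x = (Vale.Agent.P031.VS x).card := fun x hx => by
    rw [V, ← Set.ncard_coe_finset]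
    congr 1
    ext v
    rw [Finset.mem_coe, Vale.Agent.P031.mem_VS hx]
    rfl
  refine (Vale.Agent.P031.ratio_tendsto c hc).congr' ?_
  filter_upwards [Filter.eventually_ge_atTop 0] with x hx
  rw [key x hx, key (c * x) (by positivity)]

end Vale.Agent.Results.P031.Ratio
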